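import Vale.Agent.P214T.Fin42
import Vale.Agent.P214.BPT.Fin

/-! The singular set of a stationary integral `m`-varifold has Hausdorff dimension at most
`m - 1`, for varifolds given by a rectifiable set and a multiplicity only. -/

open MeasureTheory Set
open scoped ENNReal

namespace Vale.Agent.Results.P214.AATangentFree

open Vale.Agent.P214 Vale.Agent.P214T

/-- Let `V` be any integral `m`-varifold, `m ≥ 1`, in an open set `U` of a Euclidean space `E`.
The approximate tangent plane exists and is unique almost everywhere, the projection onto it is
measurable, and if `V` is stationary then its singular set has dimension at most `m - 1`. -/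
theorem result {E : Type*} [NormedAddCommGroup E] [InnerProductSpace ℝ E]
    [FiniteDimensional ℝ E] [MeasurableSpace E] [BorelSpace E]
    {m : ℕ} (hm : 1 ≤ m) {U : Set E} (hU : IsOpen U) (V : Varifold m U) :
    (∀ᵐ x ∂V.weight, ∃! T, IsTangent m V.weight x T) ∧
      AEStronglyMeasurable (fun x => proj (V.tangent x)) V.weight ∧
      (V.IsStationary → dimH V.sing ≤ ((m - 1 : ℕ) : ℝ≥0∞)) :=
  ⟨exists_unique_tangent hU V, (Top99.main hU V).1,
    fun hV => BPT.dimH_sing_le hm hU (Top99.toIV hU V) hV⟩

end Vale.Agent.Results.P214.AATangentFree
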